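import Vale.Agent.P225.Assembly.Chain
import Vale.Agent.P225.Cluster.Growth

/-!
P225, assembly: matrix facts for the followed columns: the adapted basis is unitary, the inverse
of a monomial cluster map sends classes to classes and is bounded by the exponentials.
-/

noncomputable section

namespace Vale.Agent.P225

namespace Col

open Matrix SU2
open scoped ComplexOrder Matrix.Norms.L2Operator

attribute [local irreducible] band

/-- The adapted basis of the band is unitary. -/
theorem adapt_mul_conj : adaptBasis * adaptBasisᴴ = (1 : Matrix BPt BPt ℂ) := by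
  classical
  ext x y
  have h := congrFun (congrFun (tessMat_unitary (K := 20)).2 x.1) y.1
  rw [mul_apply] at h
  have hz : ∀ z ∈ (Finset.univ : Finset (PntK 20)),
      tessMat 20 x.1 z * (tessMat 20)ᴴ z y.1 ≠ 0 → lab z.out ∈ band := by
    intro z _ hz
    by_contra hzb
    refine hz ?_
    rw [tessMat_apply_ne, zero_mul]
    intro e
    refine hzb ?_
    have : lab z.out = lab x.1.out := funext fun k => congrArg (fun t => (t.1 k : ℕ)) e.symm
    rw [this]
    exact x.2
  rw [← Finset.sum_filter_of_ne hz,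
    Finset.sum_subtype (p := fun z : PntK 20 => lab z.out ∈ band) _ (fun z => by simp)] at h
  rw [mul_apply, adaptBasis_eq]
  simp only [conjTranspose_apply, Matrix.of_apply] at h ⊢
  rw [h, one_apply, one_apply]
  exact if_congr Subtype.coe_inj rfl rfl

theorem norm_le_one_of_isometry {n : Type} [Fintype n] [DecidableEq n] {M : Matrix n n ℂ}
    (h : Mᴴ * M = 1) : ‖M‖ ≤ 1 := by
  have h1 : ‖M‖ * ‖M‖ ≤ 1 := by
    rw [← Matrix.l2_opNorm_conjTranspose_mul_self, h]
    exact norm_one_matrix_le (ι := n)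
  nlinarith [norm_nonneg M]

theorem norm_le_one_of_coisometry {n : Type} [Fintype n] [DecidableEq n] {M : Matrix n n ℂ}
    (h : M * Mᴴ = 1) : ‖M‖ ≤ 1 :=
  norm_le_one_of_isometry (mul_eq_one_comm.1 h)

theorem norm_adapt_le : ‖adaptBasis‖ ≤ 1 :=
  norm_le_one_of_coisometry (n := BPt) (M := adaptBasis) adapt_mul_conj

theorem norm_submatrix_one_le {m n : Type} [Fintype m] [DecidableEq m] [Fintype n]
    [DecidableEq n] {f : n → m} (hf : Function.Injective f) :
    ‖((1 : Matrix m m ℂ).submatrix id f)‖ ≤ 1 := by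
  have h : ((1 : Matrix m m ℂ).submatrix id f)ᴴ * ((1 : Matrix m m ℂ).submatrix id f) = 1 := by
    ext a b
    simp [mul_apply, one_apply, hf.eq_iff]
  have h1 : ‖((1 : Matrix m m ℂ).submatrix id f)‖ * ‖((1 : Matrix m m ℂ).submatrix id f)‖ ≤ 1 := by
    rw [← Matrix.l2_opNorm_conjTranspose_mul_self, h]
    exact norm_one_matrix_le (ι := n)
  nlinarith [norm_nonneg ((1 : Matrix m m ℂ).submatrix id f)]

theorem bIdx_injective (K : ℕ) : Function.Injective (bIdx K) := by
  rintro ⟨⟨⟨a, ha⟩, m⟩, hx⟩ ⟨⟨⟨b, hb⟩, n⟩, hy⟩ h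
  simp only [bIdx, BPt.toK, Sigma.mk.injEq, Subtype.mk.injEq] at h
  obtain ⟨h1, h2⟩ := h
  have hab : a = b := funext fun k => Fin.ext (by simpa using congrArg Fin.val (congrFun h1 k))
  subst hab
  have := eq_of_heq h2
  subst this
  rfl

theorem lab_bIdx (K : ℕ) (x : BPt) : lab (bIdx K x).out = lab x.1.out := rfl

theorem colLift_norm_le (K : ℕ) (q : Matrix (QPt (K + 40)) BPt ℂ) (hq : ‖q‖ ≤ 1) :
    ‖colLift K q‖ ≤ 2 := by
  have h1 : ‖bandLift K‖ ≤ 1 := by
    refine (Matrix.l2_opNorm_mul _ _).trans ?_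
    calc _ ≤ (1 : ℝ) * 1 :=
          mul_le_mul (norm_submatrix_one_le (bIdx_injective K)) norm_adapt_le (norm_nonneg _)
            zero_le_one
      _ = 1 := one_mul 1
  have h2 : ‖qLift K * q‖ ≤ 1 := by
    refine (Matrix.l2_opNorm_mul _ _).trans ?_
    calc _ ≤ (1 : ℝ) * 1 :=
          mul_le_mul (norm_submatrix_one_le Subtype.val_injective) hq (norm_nonneg _) zero_le_one
      _ = 1 := one_mul 1
  exact (norm_add_le _ _).trans (by linarith)

theorem colLift_band (K : ℕ) (q : Matrix (QPt (K + 40)) BPt ℂ) (b y : BPt) :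
    colLift K q (bIdx K y) b = adaptBasis y b := by
  have h1 : bandLift K (bIdx K y) b = adaptBasis y b := by
    simp [bandLift, mul_apply, one_apply, (bIdx_injective K).eq_iff]
  have h2 : (qLift K * q) (bIdx K y) b = 0 := by
    rw [mul_apply]
    refine Finset.sum_eq_zero fun z _ => ?_
    have : bIdx K y ≠ z.1 := fun e => z.2.1 (by rw [← e, lab_bIdx]; exact y.2)
    simp [qLift, one_apply, this]
  simp [colLift, Matrix.add_apply, h1, h2]

/-! ### Inverses of cluster products -/

theorem list_prod_inv {n : Type} [Fintype n] [DecidableEq n] :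
    ∀ (l : List (Matrix n n ℂ)) {c : ℝ}, 0 ≤ c →
      (∀ X ∈ l, ∃ Y, Y * X = 1 ∧ ‖Y‖ ≤ c) →
      ∃ Y, Y * l.prod = 1 ∧ ‖Y‖ ≤ c ^ l.length
  | [], c, _, _ => ⟨1, by simp, by simpa using norm_one_matrix_le (ι := n)⟩
  | X :: l, c, hc, h => by
    obtain ⟨Y, hY, hYn⟩ := h X (by simp)
    obtain ⟨Z, hZ, hZn⟩ := list_prod_inv l hc fun W hW => h W (by simp [hW])
    refine ⟨Z * Y, ?_, ?_⟩
    · rw [List.prod_cons, mul_assoc Z, ← mul_assoc Y, hY, one_mul, hZ]
    · refine (Matrix.l2_opNorm_mul _ _).trans ?_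
      rw [List.length_cons, pow_succ]
      exact mul_le_mul hZn hYn (norm_nonneg _) (pow_nonneg hc _)

theorem labDiag_neg_mul (a : Lbl → ℝ) : labDiag (fun t => -a t) * labDiag a = 1 := by
  simp [labDiag, diagonal_mul_diagonal, ← Complex.exp_add]

theorem norm_labDiag_le (a : Lbl → ℝ) {E : ℝ} (h : ∀ t ∈ band, |a t| ≤ E) :
    ‖labDiag a‖ ≤ Real.exp E := by
  rw [labDiag, Matrix.l2_opNorm_diagonal]
  refine (pi_norm_le_iff_of_nonneg (Real.exp_pos _).le).2 fun x => ?_
  rw [Complex.norm_real, Real.norm_of_nonneg (Real.exp_pos _).le]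
  exact Real.exp_le_exp.2 (by linarith [(abs_le.1 (h _ x.2)).1])

theorem norm_proj_labDiag_le (a : Lbl → ℝ) (o : UPoint) :
    ‖sibProj uOf o * labDiag a‖ ≤ Real.exp (-a o.lbl) := by
  rw [sibProj, labDiag, diagonal_mul_diagonal, Matrix.l2_opNorm_diagonal]
  refine (pi_norm_le_iff_of_nonneg (Real.exp_pos _).le).2 fun x => ?_
  by_cases h : uOf x = o
  · subst h
    rw [if_pos rfl, one_mul, Complex.norm_real, Real.norm_of_nonneg (Real.exp_pos _).le]
    rfl
  · rw [if_neg h, zero_mul, norm_zero]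
    exact (Real.exp_pos _).le

/-- The inverse of a monomial cluster map on one class. -/
theorem proj_inv_clusterProd_le {l : List StageSpec} {a : ℕ → Lbl → ℝ}
    (hmono : ∀ s ∈ l, ∃ σ, IsMono (s.bandMat 0) σ) {E : ℝ}
    (hE : ∀ k < l.length, ∀ t ∈ band, |a k t| ≤ E) (o : UPoint) :
    ‖sibProj uOf o * (clusterProd l a 0)⁻¹‖ ≤
      Real.exp (a l.length o.lbl + l.length * E) := by
  set Φ : Matrix BPt BPt ℂ := ((List.range l.length).map fun k =>
      labDiag (a k) * ((l[k]?).map fun s => s.bandMat ((0 : ℕ → ℂ) k)).getD 1).prod with hΦ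
  have hM : clusterProd l a 0 = Φ * labDiag (a l.length) := rfl
  obtain ⟨Y, hY, hYn⟩ := list_prod_inv ((List.range l.length).map fun k =>
      labDiag (a k) * ((l[k]?).map fun s => s.bandMat ((0 : ℕ → ℂ) k)).getD 1)
      (c := Real.exp E) (Real.exp_pos _).le (by
    intro X hX
    obtain ⟨k, hk, rfl⟩ := List.mem_map.1 hX
    rw [List.mem_range] at hk
    obtain ⟨σ, hσ, -⟩ := hmono _ (List.getElem_mem hk)
    refine ⟨(l[k].bandMat 0)ᴴ * labDiag (fun t => -a k t), ?_, ?_⟩
    · rw [List.getElem?_eq_getElem hk, Option.map_some, Option.getD_some, Pi.zero_apply,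
        mul_assoc, ← mul_assoc (labDiag _), labDiag_neg_mul, one_mul, hσ]
    · refine (Matrix.l2_opNorm_mul _ _).trans ?_
      rw [Matrix.l2_opNorm_conjTranspose]
      calc _ ≤ 1 * Real.exp E :=
            mul_le_mul (norm_le_one_of_isometry hσ)
              (norm_labDiag_le _ fun t ht => by rw [abs_neg]; exact hE k hk t ht)
              (norm_nonneg _) zero_le_one
        _ = _ := one_mul _)
  rw [List.length_map, List.length_range] at hYn
  have hinv : (clusterProd l a 0)⁻¹ = labDiag (fun t => -a l.length t) * Y := by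
    refine Matrix.inv_eq_left_inv ?_
    rw [hM, mul_assoc, ← mul_assoc Y, hY, one_mul, labDiag_neg_mul]
  rw [hinv, ← mul_assoc]
  refine (Matrix.l2_opNorm_mul _ _).trans ?_
  rw [Real.exp_add, Real.exp_nat_mul]
  refine mul_le_mul ?_ hYn (norm_nonneg _) (Real.exp_pos _).le
  exact (norm_proj_labDiag_le _ o).trans_eq (by simp)

/-- A map supported on `x ∈ π y` has an inverse moving the class `π u` to `u`. -/
theorem inv_mul_proj {M : Matrix BPt BPt ℂ} (hM : IsUnit M) {π nx : UPoint → UPoint}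
    (h : ∀ x y, uOf x ≠ π (uOf y) → M x y = 0) (h1 : ∀ u, π (nx u) = u)
    (h2 : ∀ u, nx (π u) = u) (o : UPoint) :
    M⁻¹ * sibProj uOf o = sibProj uOf (nx o) * M⁻¹ := by
  have hd := (Matrix.isUnit_iff_isUnit_det M).1 hM
  have e : sibProj uOf o * M = M * sibProj uOf (nx o) := by
    ext x y
    simp only [sibProj, diagonal_mul, mul_diagonal]
    by_cases hxy : uOf x = π (uOf y)
    · by_cases ho : uOf x = o
      · have : uOf y = nx o := by rw [← ho, hxy, h2]
        rw [if_pos ho, if_pos this]; ring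
      · have : uOf y ≠ nx o := fun e => ho (by rw [hxy, e, h1])
        rw [if_neg ho, if_neg this]; ring
    · simp [h x y hxy]
  calc M⁻¹ * sibProj uOf o = M⁻¹ * (sibProj uOf o * M) * M⁻¹ := by
        rw [mul_assoc, mul_assoc (sibProj uOf o), Matrix.mul_nonsing_inv _ hd, mul_one]
    _ = _ := by rw [e, ← mul_assoc M⁻¹, Matrix.nonsing_inv_mul _ hd, one_mul]

theorem proj_comm_of_sibPart {D : Matrix BPt BPt ℂ} (h : sibPart uOf D = D) (o : UPoint) :
    sibProj uOf o * D = D * sibProj uOf o := by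
  ext s t
  simp only [sibProj, diagonal_mul, mul_diagonal]
  by_cases hst : uOf s = uOf t
  · rw [hst, mul_comm]
  · have : D s t = 0 := by rw [← h]; simp [sibPart, hst]
    simp [this]

theorem proj_idem (o : UPoint) : sibProj uOf o * sibProj uOf o = sibProj uOf o := by
  simp [sibProj, diagonal_mul_diagonal]

theorem sum_proj [Fintype UPoint] : ∑ o : UPoint, sibProj uOf o = (1 : Matrix BPt BPt ℂ) := by
  ext x y
  rw [Matrix.sum_apply]
  by_cases h : x = y
  · subst h; simp [sibProj]
  · simp [sibProj, h]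

end Col

end Vale.Agent.P225
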